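import Crest.Agent.N207.S.Out.Defs

/-!
Row 207, S0320: the statement of the inner block inside the bootstrap (helper55).
Time starts at `0`, `T` is the singular time, `τ = T - t`.
-/

set_option autoImplicit false

open Set

noncomputable section
namespace Crest.Agent.N207.S.Top

/-- scale invariant jet bounds in the `x`-gauge at time `s` on `[0,X]`. -/
def RX (C e X : ℝ) (w k : ℕ → ℝ → ℝ → ℝ) (s : ℝ) : Prop :=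
  ∀ x ∈ Icc (0 : ℝ) X, ∀ j ≤ 40,
    |w 0 s x ^ j * w (j + 1) s x| ≤ C ∧ |w 0 s x ^ (j + 1) * k j s x| ≤ C * e

/-- the premise of REG at time `s`. -/
def Pre (X : ℝ) (w : ℕ → ℝ → ℝ → ℝ) (s : ℝ) : Prop :=
  ∀ x ∈ Icc (0 : ℝ) X, x ≤ 2 * w 0 s x ∧ |w 1 s x| ≤ 2

/-- what INNER needs from the data (time `0`). -/
def DatI (e T X : ℝ) (w k : ℕ → ℝ → ℝ → ℝ) : Prop :=
  (∀ x ∈ Icc 0 (T / 200), T ^ 3 / 4 ≤ w 0 0 x - x ∧ |w 1 0 x - 1| ≤ 1 / 2 ∧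
    w 1 0 x - 1 ≤ T ^ (3 / 2 : ℝ)) ∧
  (∀ x ∈ Ioc 0 (T / 200), w 0 0 x - x ≤ 3 / 4 * T ^ 3 * x ^ (-(1 / 10) : ℝ)) ∧
  (∀ x ∈ Ioc 0 X, |1 - x * k 0 0 x - 1 / (1 + 2 * e)| ≤ T ^ (3 / 2 : ℝ) * x ^ (-(11 / 20) : ℝ) / 2)

/-- two-sided bound of `W` in the inner region at time `s`. -/
def Inn (T : ℝ) (w : ℕ → ℝ → ℝ → ℝ) (s : ℝ) : Prop :=
  (∀ x ∈ Icc 0 ((T - s) / 200), (T - s) ^ 3 / 8 ≤ w 0 s x - x) ∧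
  (∀ x ∈ Ioc 0 ((T - s) / 200), w 0 s x - x ≤ (T - s) ^ 3 * x ^ (-(1 / 10) : ℝ))

/-- **INNER, inside the bootstrap** (I1 (a)-(d)). -/
def InnerStmt : Prop :=
  ∀ C : ℝ, 1 ≤ C → ∃ C1 e0 X0 : ℝ, 1 ≤ C1 ∧ 0 < e0 ∧ 0 < X0 ∧ ∀ X : ℝ, 0 < X → X ≤ X0 →
    ∃ τ1 : ℝ, 0 < τ1 ∧ ∀ (e t T xs : ℝ) (w wt k kt : ℕ → ℝ → ℝ → ℝ), 0 < e → e ≤ e0 → X < xs →
      XSol e 0 t xs w wt k kt → 0 ≤ t → t < T → T ≤ τ1 → DatI e T X w k →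
      (∀ s ∈ Icc 0 t, ∀ x ∈ Icc 0 xs, 0 < 1 - x * k 0 s x) →
      (∀ s ∈ Icc 0 t, Out.Out T X w s) →
      (∀ u ∈ Icc 0 t, (∀ s ∈ Icc 0 u, Pre X w s) → ∀ s ∈ Icc 0 u, RX C e X w k s) →
      ∀ s ∈ Icc 0 t, Pre X w s ∧ Out.In C1 e T X w k s ∧ Inn T w s

end Crest.Agent.N207.S.Top
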