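import Crest.Agent.N207.S.Ga.Jet
import Crest.Agent.N207.S.Rg.Defs
import Crest.Agent.N207.S.Top.IDefs
import Crest.Agent.N207.S.GDefs

/-!
Row 207, S0320: the gauge and data statements glued in `Top/Glue` (helper55).
-/

set_option autoImplicit false

open Set Filter
open scoped Topology ContDiff

noncomputable section
namespace Crest.Agent.N207.S.Top

open Ex Ga

/-- jets of the identity. -/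
def idS : ℕ → ℝ → ℝ
  | 0, x => x
  | 1, _ => 1
  | _ + 2, _ => 0

/-- jets of `w = x + η` near the tip. -/
def wT (U : ℝ → ℝ → E3) (j : ℕ) (t x : ℝ) : ℝ := cj U 0 j t x + idS j x

/-- `P = η'` at time `s`. -/
def Compat (U : ℝ → ℝ → E3) (s : ℝ) : Prop := ∀ x ∈ Icc (0 : ℝ) 1, U s x 1 = cj U 0 1 s x

/-- **GAUGE, near the tip** (helper66). -/
def GaNear : Prop :=
  ∀ (e : ℝ) (b : ℕ) (h : Rel e b) (t : ℝ) (U : ℝ → ℝ → E3), 0 < t → IsSol (sys h) 0 t U →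
    Compat U 0 →
    (∀ s ∈ Icc 0 t, ∀ x ∈ Icc (0 : ℝ) 1, ∀ j, cj U 1 j s x = cj U 0 (j + 1) s x) ∧
      XSol e 0 t (1 / 4) (wT U) (ct (sys h) U 0) (cj U 2) (ct (sys h) U 2)

/-- **GAUGE, final form** (helper66). -/
def GaFin : Prop :=
  ∀ (q b : ℕ) (h : Rel (1 / ((q : ℝ) - 1)) b) (T X : ℝ) (U : ℝ → ℝ → E3), 2 ≤ q →
    0 < T → 0 < X → X ≤ 1 / 4 → (∀ t ∈ Ioo 0 T, IsSol (sys h) 0 t U) → Compat U 0 →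
    (∃ C, ∀ s ∈ Ico 0 T, ∀ x ∈ Icc 0 X, |scal (1 / ((q : ℝ) - 1)) x (wT U 0 s x) (wT U 1 s x)
      (wT U 2 s x) (cj U 2 0 s x) (cj U 2 1 s x)| ≤ C) →
    (∃ (K : Set (ℝ × E3)) (C : ℝ), IsCompact K ∧ K ⊆ Om ∧ ∀ s ∈ Ico 0 T, ∀ x ∈ Icc X 1,
      (x, U s x) ∈ K ∧ ∀ j ≤ 2, |cj U 0 j s x| ≤ C ∧ |cj U 2 j s x| ≤ C) →
    Tendsto (fun s => U s 0 0) (𝓝[<] T) (𝓝 0) →
    ∃ a W X' z Y v, Geo.GaugeSol q a T W X' z Y v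

/-- **DATA** (helper55, helper47). -/
def DataStmt : Prop :=
  ∃ K0 : ℝ, 1 ≤ K0 ∧ ∀ X : ℝ, 0 < X → X ≤ 1 / 10 ^ 6 → ∃ T0 : ℝ, 0 < T0 ∧
    ∀ (e d α T : ℝ), Out.Par e d α → 0 < T → T ≤ T0 →
    ∃ u0 : (Fin 3 → ℝ) → ℝ → E3,
      (∀ p, ContDiffOn ℝ ∞ (u0 p) (Icc 0 1)) ∧
      (∀ p, ∀ x ∈ Icc (0 : ℝ) 1, (x, u0 p x) ∈ Om) ∧
      (∀ j, ∃ C, ∀ p, ∀ x ∈ Icc (0 : ℝ) 1, ‖jet j (u0 p) x‖ ≤ C) ∧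
      (∀ p ε, 0 < ε → ∀ᶠ p' in 𝓝 p, ∀ x ∈ Icc (0 : ℝ) 1, ‖u0 p' x - u0 p x‖ ≤ ε) ∧
      ∀ p (U : ℝ → ℝ → E3), (∀ x ∈ Icc (0 : ℝ) 1, U 0 x = u0 p x) →
        Compat U 0 ∧ Rg.JB 40 K0 e U 0 ∧ (∀ x ∈ Icc X 1, |U 0 x 0| ≤ X ^ 2) ∧
        DatI e T X (wT U) (cj U 2) ∧ Out.Dat α T X (wT U) 0 ∧
        ∀ j : Fin 3, (p j = 1 → 1 / 100 < Out.nn α T (wT U) j 0) ∧
          (p j = -1 → Out.nn α T (wT U) j 0 < -(1 / 100))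

end Crest.Agent.N207.S.Top
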