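import Crest.Agent.N207.S.Top.Defs

/-!
Row 207, S0320: elementary lemmas of the glue (helper55).
-/

set_option autoImplicit false

open Set Filter
open scoped Topology ContDiff

noncomputable section
namespace Crest.Agent.N207.S.Top

open Ex Ga

lemma sol_mono {S : Sys E3} {t u : ℝ} {U : ℝ → ℝ → E3} (h : IsSol S 0 t U) (hu : u ≤ t) :
    IsSol S 0 u U where
  smooth := h.smooth.mono (prod_mono (Icc_subset_Icc le_rfl hu) subset_rfl)
  eqn s hs x hx :=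
    (h.eqn s (Icc_subset_Icc le_rfl hu hs) x hx).mono (Icc_subset_Icc le_rfl hu)
  mem s hs x hx := h.mem s (Icc_subset_Icc le_rfl hu hs) x hx

lemma jb_mono {m : ℕ} {K K' e s : ℝ} {U : ℝ → ℝ → E3} (h : Rg.JB m K e U s) (hK : K ≤ K')
    (he : 0 ≤ e) : Rg.JB m K' e U s := fun x hx j hj =>
  ⟨(h x hx j hj).1.trans hK, (h x hx j hj).2.trans (mul_le_mul_of_nonneg_right hK he)⟩

lemma wT_zero (U : ℝ → ℝ → E3) (s x : ℝ) : wT U 0 s x = U s x 0 + x := rfl
lemma wT_one (U : ℝ → ℝ → E3) (s x : ℝ) : wT U 1 s x = cj U 0 1 s x + 1 := rfl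
lemma wT_add (U : ℝ → ℝ → E3) (j : ℕ) (s x : ℝ) : wT U (j + 2) s x = cj U 0 (j + 2) s x := by
  simp [wT, idS]

lemma wF_eq (U : ℝ → ℝ → E3) (s : ℝ) {x : ℝ} (hx : x < 1 / 3) :
    wF x (U s x 0) = wT U 0 s x := by
  rw [wT_zero, wF, m1_left hx]; ring

lemma rx_of_jb {K e X s : ℝ} {U : ℝ → ℝ → E3} (h : Rg.JB 40 K e U s) (he : 0 ≤ e)
    (hX : X ≤ 1 / 4) (hw : ∀ x ∈ Icc 0 X, 0 ≤ wT U 0 s x) :
    RX (K + 1) e X (wT U) (cj U 2) s := by
  intro x hx j hj
  obtain ⟨h1, h2⟩ := h x ⟨hx.1, by linarith [hx.2]⟩ j hj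
  rw [wF_eq U s (by linarith [hx.2])] at h1 h2
  have h0 := hw x hx
  constructor
  · rcases j with _ | j
    · simp only [pow_zero, one_mul, zero_add] at h1 ⊢
      rw [wT_one]
      exact (abs_add_le _ _).trans (by rw [abs_one]; exact add_le_add h1 le_rfl)
    · rw [wT_add, abs_mul, abs_of_nonneg (pow_nonneg h0 _)]
      exact h1.trans (by linarith)
  · rw [abs_mul, abs_of_nonneg (pow_nonneg h0 _)]
    exact h2.trans (by nlinarith)

/-- the far bounds at time `s`. -/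
def Far (X : ℝ) (U : ℝ → ℝ → E3) (s : ℝ) : Prop :=
  ∀ x ∈ Icc X 1, x ≤ 2 * wF x (U s x 0) ∧ |U s x 0| ≤ 2 * X ^ 2

/-- bounds of the reference profile. -/
def BM (M : ℝ) : Prop :=
  ∀ x ∈ Icc (0 : ℝ) 1, |m1 x| ≤ M ∧ |sig x| ≤ M ∧ |m2 x * (1 + m1 x ^ 2)| ≤ M

lemma exists_BM : ∃ M, 1 ≤ M ∧ BM M := by
  have h1 := contDiff_m1.continuous
  have h2 := contDiff_m2.continuous
  have h3 := contDiff_sig.continuous
  obtain ⟨A, hA⟩ := (isCompact_Icc (a := (0 : ℝ)) (b := 1)).exists_bound_of_continuousOn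
    (f := fun x => |m1 x| + |sig x| + |m2 x * (1 + m1 x ^ 2)|) (by fun_prop)
  refine ⟨max A 1, le_max_right _ _, fun x hx => ?_⟩
  have := (le_abs_self _).trans (hA x hx)
  have a := abs_nonneg (m1 x)
  have b := abs_nonneg (sig x)
  have c := abs_nonneg (m2 x * (1 + m1 x ^ 2))
  have d := le_max_left A 1
  exact ⟨by linarith, by linarith, by linarith⟩

/-- compact pieces of the domain. -/
def KK (c R : ℝ) : Set (ℝ × E3) :=
  {y | y.1 ∈ Icc (0 : ℝ) 1 ∧ ‖y.2‖ ≤ R ∧ c ≤ wF y.1 (y.2 0) ∧ 1 / 2 ≤ 1 - m0 y.1 * y.2 2 ∧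
    1 / 2 ≤ 1 - sig y.1 * y.2 0 ∧ 1 / 2 ≤ DF y.1 (y.2 0)}

lemma KK_sub {c : ℝ} (hc : 0 < c) (R : ℝ) : KK c R ⊆ Om := fun _ hy =>
  ⟨hc.trans_le hy.2.2.1, by linarith [hy.2.2.2.1], by linarith [hy.2.2.2.2.1],
    by linarith [hy.2.2.2.2.2]⟩

lemma isCompact_KK (c R : ℝ) : IsCompact (KK c R) := by
  have h0 := contDiff_m0.continuous
  have h1 := contDiff_m1.continuous
  have h2 := contDiff_m2.continuous
  have h3 := contDiff_sig.continuous
  refine ((isCompact_Icc (a := (0 : ℝ)) (b := 1)).prod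
    (isCompact_closedBall (0 : E3) R)).of_isClosed_subset ?_ fun y hy => ⟨hy.1, by simpa using hy.2.1⟩
  have a0 : IsClosed {y : ℝ × E3 | y.1 ∈ Icc (0 : ℝ) 1} := isClosed_Icc.preimage continuous_fst
  have a1 : IsClosed {y : ℝ × E3 | ‖y.2‖ ≤ R} := isClosed_le (by fun_prop) continuous_const
  have a2 : IsClosed {y : ℝ × E3 | c ≤ wF y.1 (y.2 0)} :=
    isClosed_le continuous_const (by unfold wF; fun_prop)
  have a3 : IsClosed {y : ℝ × E3 | 1 / 2 ≤ 1 - m0 y.1 * y.2 2} :=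
    isClosed_le continuous_const (by fun_prop)
  have a4 : IsClosed {y : ℝ × E3 | 1 / 2 ≤ 1 - sig y.1 * y.2 0} :=
    isClosed_le continuous_const (by fun_prop)
  have a5 : IsClosed {y : ℝ × E3 | 1 / 2 ≤ DF y.1 (y.2 0)} :=
    isClosed_le continuous_const (by unfold DF; fun_prop)
  exact a0.inter (a1.inter (a2.inter (a3.inter (a4.inter a5))))

lemma m0_le {x : ℝ} (hx : x ∈ Icc (0 : ℝ) 1) : m0 x ≤ 2 * x := by
  rcases le_or_gt x (1 / 3) with h | h
  · rw [m0_left h]; linarith [hx.1]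
  · have a := st_nonneg x
    have b := st_le_one x
    unfold m0
    nlinarith

lemma norm_le3 (v : E3) {C : ℝ} (h : ∀ i, |v i| ≤ C) : ‖v‖ ≤ 3 * C := by
  have h0 : 0 ≤ C := (abs_nonneg _).trans (h 0)
  rw [EuclideanSpace.norm_eq, Real.sqrt_le_left (by positivity), Fin.sum_univ_three]
  have a := sq_le_sq' (abs_le.1 (h 0)).1 (abs_le.1 (h 0)).2
  have b := sq_le_sq' (abs_le.1 (h 1)).1 (abs_le.1 (h 1)).2
  have c := sq_le_sq' (abs_le.1 (h 2)).1 (abs_le.1 (h 2)).2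
  simp only [Real.norm_eq_abs, sq_abs]
  nlinarith

lemma le_div_pow {c w K a : ℝ} {j : ℕ} (hc : 0 < c) (hc1 : c ≤ 1) (hw : c ≤ w) (hj : j ≤ 4)
    (ha : 0 ≤ a) (h : w ^ j * a ≤ K) : a ≤ K / c ^ 4 := by
  rw [le_div_iff₀ (by positivity)]
  have h1 : c ^ 4 ≤ c ^ j := pow_le_pow_of_le_one hc.le hc1 hj
  have h2 : c ^ j ≤ w ^ j := pow_le_pow_left₀ hc.le hw j
  nlinarith

/-- pointwise bounds of all components and membership in the compact piece. -/
lemma mem_KK {K e X M c s x : ℝ} {U : ℝ → ℝ → E3} (hM : BM M) (hXM : 4 * X * M ≤ 1)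
    (hX0 : 0 < X) (hX : X ≤ 1 / 4) (hK : 1 ≤ K) (he : 0 < e) (heK : 8 * K * e ≤ 1)
    (hj : Rg.JB 40 K e U s) (hf : Far X U s) (hp : Pre X (wT U) s)
    (hP : ∀ j, cj U 1 j s x = cj U 0 (j + 1) s x) (h0 : |U s x 0| ≤ K + 1)
    (hc : 0 < c) (hc1 : c ≤ 1) (hx : x ∈ Icc (0 : ℝ) 1) (hw : c ≤ wF x (U s x 0)) :
    (∀ i, ∀ j ≤ 3, |cj U i j s x| ≤ (K + 1) / c ^ 4) ∧
      (x, U s x) ∈ KK c (3 * ((K + 1) / c ^ 4)) := by
  have e1 : e ≤ 1 := by nlinarith
  have hη : ∀ j ≤ 4, |cj U 0 j s x| ≤ (K + 1) / c ^ 4 := by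
    intro j hj4
    rcases j with _ | j
    · exact le_div_pow (j := 0) hc hc1 hw (by norm_num) (abs_nonneg _) (by simpa [cj_zero] using h0)
    · exact le_div_pow hc hc1 hw (by omega) (abs_nonneg _)
        ((hj x hx j (by omega)).1.trans (by linarith))
  have hall : ∀ i, ∀ j ≤ 3, |cj U i j s x| ≤ (K + 1) / c ^ 4 := by
    intro i j hj3
    fin_cases i
    · exact hη j (by omega)
    · exact (congrArg abs (hP j)).le.trans (hη (j + 1) (by omega))
    · exact le_div_pow hc hc1 hw (by omega) (abs_nonneg _)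
        ((hj x hx j (by omega)).2.trans (by nlinarith))
  refine ⟨hall, hx, norm_le3 _ fun i => hall i 0 (by norm_num), hw, ?_, ?_, ?_⟩
  · have h1 : x ≤ 2 * wF x (U s x 0) := by
      rcases le_total x X with h | h
      · rw [wF_eq U s (by linarith)]; exact (hp x ⟨hx.1, h⟩).1
      · exact (hf x ⟨h, hx.2⟩).1
    have h2 := (hj x hx 0 (by norm_num)).2
    simp only [zero_add, pow_one, jet, iteratedDerivWithin_zero] at h2
    have h3 := m0_le hx
    have h4 := m0_nonneg hx.1 hx.2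
    have h5 := le_abs_self (U s x 2)
    have h6 := abs_nonneg (U s x 2)
    show 1 / 2 ≤ 1 - m0 x * U s x 2
    nlinarith [mul_le_mul_of_nonneg_left h5 h4, mul_le_mul_of_nonneg_right h3 h6,
      mul_le_mul_of_nonneg_right h1 h6]
  · show 1 / 2 ≤ 1 - sig x * U s x 0
    rcases le_total x X with h | h
    · rw [sig_left (by linarith)]; norm_num
    · have h1 := (hf x ⟨h, hx.2⟩).2
      have h2 := (hM x hx).2.1
      have h3 := le_abs_self (sig x * U s x 0)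
      rw [abs_mul] at h3
      have := mul_le_mul h2 h1 (abs_nonneg _) ((abs_nonneg _).trans h2)
      nlinarith
  · show 1 / 2 ≤ 1 + m2 x * (1 + m1 x ^ 2) * U s x 0
    rcases le_total x X with h | h
    · rw [m2_left (by linarith)]; norm_num
    · have h1 := (hf x ⟨h, hx.2⟩).2
      have h2 := (hM x hx).2.2
      have h3 := neg_abs_le (m2 x * (1 + m1 x ^ 2) * U s x 0)
      rw [abs_mul] at h3
      have := mul_le_mul h2 h1 (abs_nonneg _) ((abs_nonneg _).trans h2)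
      nlinarith

lemma far_zero {X M s : ℝ} {U : ℝ → ℝ → E3} (hM : BM M) (hXM : 4 * X * M ≤ 1) (hX0 : 0 < X)
    (h : ∀ x ∈ Icc X 1, |U s x 0| ≤ X ^ 2) : Far X U s := by
  intro x hx
  have h1 := h x hx
  have h2 := (hM x ⟨hX0.le.trans hx.1, hx.2⟩).1
  have h3 := neg_abs_le (m1 x * U s x 0)
  rw [abs_mul] at h3
  have := mul_le_mul h2 h1 (abs_nonneg _) ((abs_nonneg _).trans h2)
  refine ⟨?_, by nlinarith⟩
  unfold wF
  nlinarith [hx.1]

lemma eta_le {S : Sys E3} {K e X t s x : ℝ} {U : ℝ → ℝ → E3} (ht : 0 < t) (hU : IsSol S 0 t U)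
    (hs : s ∈ Icc 0 t) (hj : Rg.JB 40 K e U s) (hf : Far X U s) (hX0 : 0 < X) (hX : X ≤ 1 / 4)
    (hx : x ∈ Icc (0 : ℝ) 1) : |U s x 0| ≤ K + 1 := by
  have h1 := (convex_Icc (0 : ℝ) 1).norm_image_sub_le_of_norm_hasDerivWithin_le
    (f := cj U 0 0 s) (f' := cj U 0 1 s) (C := K)
    (fun y hy => (jet_sol ht hU 0).dx 0 s y hs hy)
    (fun y hy => by simpa [cj] using (hj y hy 0 (by norm_num)).1) ⟨zero_le_one, le_rfl⟩ hx
  have h2 := (hf 1 ⟨by linarith, le_rfl⟩).2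
  have hK : 0 ≤ K := by
    have := (hj x hx 0 (by norm_num)).1
    simp only [pow_zero, one_mul] at this
    exact (abs_nonneg _).trans this
  simp only [cj_zero, Real.norm_eq_abs] at h1
  have h3 : |x - 1| ≤ 1 := by rw [abs_le]; constructor <;> linarith [hx.1, hx.2]
  have h4 := abs_add_le (U s x 0 - U s 1 0) (U s 1 0)
  rw [sub_add_cancel] at h4
  nlinarith [mul_le_mul_of_nonneg_left h3 hK]

lemma cont_mulS {Y : Type*} [TopologicalSpace Y] {R : Set Y} {F G : Y → ℕ → ℝ → ℝ} {x : Y → ℝ}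
    (hF : ∀ i, ContinuousOn (fun y => F y i (x y)) R)
    (hG : ∀ i, ContinuousOn (fun y => G y i (x y)) R) (j : ℕ) :
    ContinuousOn (fun y => Out.mulS j (F y) (G y) (x y)) R := by
  induction j generalizing F G with
  | zero => exact (hF 0).mul (hG 0)
  | succ j ih =>
    exact (ih (F := fun y => Out.sh (F y)) (fun i => hF (i + 1)) hG).add
      (ih (G := fun y => Out.sh (G y)) hF fun i => hG (i + 1))

end Crest.Agent.N207.S.Top
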