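import Crest.Agent.N207.S.Top.Gl1
import Crest.Agent.N207.S.In.PostDefs

/-!
Row 207, S0320: the bootstrap inside the cube (helper55).
-/

set_option autoImplicit false

open Set Filter
open scoped Topology ContDiff

noncomputable section
namespace Crest.Agent.N207.S.Top

open Ex Ga

/-- what is known at time `0`. -/
structure Dat0 (K0 e α T X : ℝ) (U : ℝ → ℝ → E3) : Prop where
  cp : Compat U 0
  jb : Rg.JB 40 K0 e U 0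
  far : ∀ x ∈ Icc X 1, |U 0 x 0| ≤ X ^ 2
  di : DatI e T X (wT U) (cj U 2)
  dat : Out.Dat α T X (wT U) 0

/-- what the bootstrap gives at time `s`. -/
structure Good (K e T X : ℝ) (U : ℝ → ℝ → E3) (s : ℝ) : Prop where
  out : Out.Out T X (wT U) s
  pre : Pre X (wT U) s
  inn : Inn T (wT U) s
  jb : Rg.JB 40 K e U s
  far : Far X U s
  cp : ∀ x ∈ Icc (0 : ℝ) 1, ∀ j, cj U 1 j s x = cj U 0 (j + 1) s x
  eta : ∀ x ∈ Icc (0 : ℝ) 1, |U s x 0| ≤ K + 1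

/-- the constants and the specialised blocks. -/
structure Ctx {e : ℝ} {b : ℕ} (h : Rel e b) (α T X K0 K C1 M : ℝ) : Prop where
  hT : 0 < T
  TX : T ≤ X
  X1 : X ≤ 1 / 10 ^ 6
  K1 : 1 ≤ K
  K0K : K0 ≤ K
  eK : 8 * K * e ≤ 1
  hM : BM M
  XM : 4 * X * M ≤ 1
  near : GaNear
  reg : ∀ (t : ℝ) (U : ℝ → ℝ → E3), 0 < t → t ≤ T → IsSol (sys h) 0 t U →
    (∀ s ∈ Icc 0 t, ∀ x ∈ Icc (0 : ℝ) 1, U s x 1 = jet 1 (fun y => U s y 0) x) →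
    Rg.JB 40 K0 e U 0 → (∀ x ∈ Icc X 1, |U 0 x 0| ≤ X ^ 2) →
    (∀ s ∈ Icc 0 t, ∀ x ∈ Icc 0 X, x ≤ 2 * (x + U s x 0) ∧ |1 + U s x 1| ≤ 2) →
    ∀ s ∈ Icc 0 t, Rg.JB 40 K e U s ∧ ∀ x ∈ Icc X 1, x ≤ 2 * wF x (U s x 0) ∧
      |U s x 0 - U 0 x 0| ≤ X ^ 2
  inner : ∀ (t : ℝ) (w wt k kt : ℕ → ℝ → ℝ → ℝ), XSol e 0 t (1 / 4) w wt k kt → 0 ≤ t → t < T →
    DatI e T X w k → (∀ s ∈ Icc 0 t, ∀ x ∈ Icc (0 : ℝ) (1 / 4), 0 < 1 - x * k 0 s x) →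
    (∀ s ∈ Icc 0 t, Out.Out T X w s) →
    (∀ u ∈ Icc 0 t, (∀ s ∈ Icc 0 u, Pre X w s) → ∀ s ∈ Icc 0 u, RX (K + 1) e X w k s) →
    ∀ s ∈ Icc 0 t, Pre X w s ∧ Out.In C1 e T X w k s ∧ Inn T w s
  outer : ∀ (t t' : ℝ) (w wt k kt : ℕ → ℝ → ℝ → ℝ), XSol e 0 t' (1 / 4) w wt k kt → 0 ≤ t →
    t ≤ t' → t' < T → Out.Dat α T X w 0 → (∀ s ∈ Icc 0 t, Out.Cube α T w s) →
    (∀ u ∈ Icc 0 t, (∀ s ∈ Icc 0 u, Out.Out T X w s) → ∀ s ∈ Icc 0 u, Out.In C1 e T X w k s) →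
    (∀ s ∈ Icc 0 t, Out.Out T X w s) ∧ (t < t' → ∀ j < 3, |Out.nn α T w j t| = 1 / 100 →
      ∃ s, t < s ∧ s ≤ t' ∧ 1 / 100 < |Out.nn α T w j s|)
  post : ∀ (w wt k kt : ℕ → ℝ → ℝ → ℝ),
    (∀ t ∈ Ico 0 T, XSol e 0 t X w wt k kt ∧ Reg1 (K + 1) e 0 t X w k ∧ Out.Out T X w t) →
    (∀ t ∈ Ico 0 T, ∀ x ∈ Icc 0 ((T - t) / 200),
      x ≤ w 0 t x ∧ 1 / 8 * (T - t) ^ 3 ≤ w 0 t x ∧ |w 1 t x| ≤ 2) →
    ∃ C : ℝ, ∀ t ∈ Ico 0 T, ∀ x ∈ Icc 0 X,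
      |scal e x (w 0 t x) (w 1 t x) (w 2 t x) (k 0 t x) (k 1 t x)| ≤ C

variable {e : ℝ} {b : ℕ} {h : Rel e b} {α T X K0 K C1 M : ℝ} {U : ℝ → ℝ → E3} {t t' : ℝ}

lemma Ctx.X0 (c : Ctx h α T X K0 K C1 M) : 0 < X := c.hT.trans_le c.TX

lemma Ctx.X4 (c : Ctx h α T X K0 K C1 M) : X < 1 / 4 := c.X1.trans_lt (by norm_num)

lemma Ctx.reg' (c : Ctx h α T X K0 K C1 M) (ht' : 0 < t') (hT : t' < T)
    (hU : IsSol (sys h) 0 t' U) (d : Dat0 K0 e α T X U) {u : ℝ} (hu : u ∈ Icc 0 t')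
    (hp : ∀ s ∈ Icc 0 u, Pre X (wT U) s) : ∀ s ∈ Icc 0 u, Rg.JB 40 K e U s ∧ Far X U s := by
  have hP := (c.near e b h t' U ht' hU d.cp).1
  rcases hu.1.eq_or_lt with h0 | h0
  · intro s hs
    obtain rfl : s = 0 := le_antisymm (h0 ▸ hs.2) hs.1
    exact ⟨jb_mono d.jb c.K0K h.1.le, far_zero c.hM c.XM c.X0 d.far⟩
  · intro s hs
    have hsub : Icc 0 u ⊆ Icc 0 t' := Icc_subset_Icc le_rfl hu.2
    obtain ⟨h1, h2⟩ := c.reg u U h0 (hu.2.trans hT.le) (sol_mono hU hu.2)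
      (fun s hs x hx => hP s (hsub hs) x hx 0) d.jb d.far (fun s hs x hx => by
        obtain ⟨a1, a2⟩ := hp s hs x hx
        have a3 := hP s (hsub hs) x ⟨hx.1, by linarith [hx.2, c.X4]⟩ 0
        rw [wT_one, ← a3, add_comm] at a2
        rw [wT_zero, add_comm] at a1
        exact ⟨a1, a2⟩) s hs
    refine ⟨h1, fun x hx => ⟨(h2 x hx).1, ?_⟩⟩
    have a := abs_add_le (U s x 0 - U 0 x 0) (U 0 x 0)
    rw [sub_add_cancel] at a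
    linarith [(h2 x hx).2, d.far x hx]

lemma Ctx.inner' (c : Ctx h α T X K0 K C1 M) (ht' : 0 < t') (hT : t' < T)
    (hU : IsSol (sys h) 0 t' U) (d : Dat0 K0 e α T X U) {u : ℝ} (hu : u ∈ Icc 0 t')
    (ho : ∀ s ∈ Icc 0 u, Out.Out T X (wT U) s) : ∀ s ∈ Icc 0 u, Pre X (wT U) s ∧
      Out.In C1 e T X (wT U) (cj U 2) s ∧ Inn T (wT U) s := by
  have hX := (c.near e b h t' U ht' hU d.cp).2
  have hsub : Icc 0 u ⊆ Icc 0 t' := Icc_subset_Icc le_rfl hu.2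
  refine c.inner u _ _ _ _ (hX.mono le_rfl hu.2) hu.1 (hu.2.trans_lt hT) d.di
    (fun s hs x hx => ?_) ho fun v hv hp s hs => ?_
  · have := (hU.mem s (hsub hs) x ⟨hx.1, by linarith [hx.2]⟩).2.1
    rwa [m0_left (by linarith [hx.2] : x ≤ 1 / 3)] at this
  · refine rx_of_jb (c.reg' ht' hT hU d (hsub hv) hp s hs).1 h.1.le c.X4.le fun x hx => ?_
    linarith [(hp s hs x hx).1, hx.1]

/-- **the bootstrap**. -/
theorem Ctx.boot (c : Ctx h α T X K0 K C1 M) (ht' : 0 < t') (hT : t' < T)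
    (hU : IsSol (sys h) 0 t' U) (d : Dat0 K0 e α T X U) (ht : t ∈ Icc 0 t')
    (hc : ∀ s ∈ Icc 0 t, Out.Cube α T (wT U) s) :
    (∀ s ∈ Icc 0 t, Good K e T X U s) ∧ (t < t' → ∀ j < 3, |Out.nn α T (wT U) j t| = 1 / 100 →
      ∃ s, t < s ∧ s ≤ t' ∧ 1 / 100 < |Out.nn α T (wT U) j s|) := by
  obtain ⟨hP, hX⟩ := c.near e b h t' U ht' hU d.cp
  have hsub : Icc 0 t ⊆ Icc 0 t' := Icc_subset_Icc le_rfl ht.2
  obtain ⟨ho, htr⟩ := c.outer t t' _ _ _ _ hX ht.1 ht.2 hT d.dat hc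
    fun u hu ho s hs => (c.inner' ht' hT hU d (hsub hu) ho s hs).2.1
  refine ⟨fun s hs => ?_, htr⟩
  have hi := c.inner' ht' hT hU d ht ho
  have hr := c.reg' ht' hT hU d ht (fun s hs => (hi s hs).1) s hs
  exact ⟨ho s hs, (hi s hs).1, (hi s hs).2.2, hr.1, hr.2, hP s (hsub hs),
    fun x hx => eta_le ht' hU (hsub hs) hr.1 hr.2 c.X0 c.X4.le hx⟩

lemma Ctx.w_low (c : Ctx h α T X K0 K C1 M) {s x : ℝ} (g : Good K e T X U s) (hs : 0 ≤ s)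
    (hst : s ≤ t) (ht : t < T) (hx : x ∈ Icc (0 : ℝ) 1) : (T - t) ^ 3 / 8 ≤ wF x (U s x 0) := by
  have h1 : (T - t) ^ 3 ≤ (T - s) ^ 3 := pow_le_pow_left₀ (by linarith) (by linarith) 3
  have hX := c.X1
  have hTX := c.TX
  have hτ : 0 < T - s := by linarith
  rcases le_total x ((T - s) / 200) with h2 | h2
  · rw [wF_eq U s (by linarith)]
    linarith [g.inn.1 x ⟨hx.1, h2⟩, hx.1]
  · have h3 : x ≤ 2 * wF x (U s x 0) := by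
      rcases le_total x X with h | h
      · rw [wF_eq U s (by linarith)]; exact (g.pre x ⟨hx.1, h⟩).1
      · exact (g.far x ⟨h, hx.2⟩).1
    have h4 : (T - s) ^ 2 ≤ 1 / 50 := by nlinarith
    nlinarith

lemma Ctx.mem (c : Ctx h α T X K0 K C1 M) {s x a : ℝ} (g : Good K e T X U s) (ha : 0 < a)
    (ha1 : a ≤ 1) (hx : x ∈ Icc (0 : ℝ) 1) (hw : a ≤ wF x (U s x 0)) :
    (∀ i, ∀ j ≤ 3, |cj U i j s x| ≤ (K + 1) / a ^ 4) ∧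
      (x, U s x) ∈ KK a (3 * ((K + 1) / a ^ 4)) :=
  mem_KK c.hM c.XM c.X0 c.X4.le c.K1 h.1 c.eK g.jb g.far g.pre (g.cp x hx) (g.eta x hx) ha ha1 hx hw

lemma Ctx.reg1 (c : Ctx h α T X K0 K C1 M) (g : ∀ s ∈ Icc 0 t, Good K e T X U s) :
    Reg1 (K + 1) e 0 t X (wT U) (cj U 2) := by
  intro s x hs hx
  have hp := (g s hs).pre
  have r := rx_of_jb (g s hs).jb h.1.le c.X4.le (fun x hx => by
    linarith [(hp x hx).1, hx.1]) x hx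
  have r0 := r 0 (by norm_num)
  have r1 := r 1 (by norm_num)
  simp only [pow_zero, one_mul, zero_add, pow_one] at r0 r1
  exact ⟨r0.1, r1.1, r0.2, r1.2, (hp x hx).1⟩

/-- the tip closes linearly. -/
lemma Ctx.tip (c : Ctx h α T X K0 K C1 M) {s : ℝ} {wt k kt : ℕ → ℝ → ℝ → ℝ}
    (hX : XSol e 0 s X (wT U) wt k kt) (g : Good K e T X U s) (hs : 0 ≤ s) (hT : s < T) :
    0 ≤ U s 0 0 ∧ U s 0 0 ≤ (T - s) / 50 := by
  have hX1 := c.X1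
  have hTX := c.TX
  have hx : (T - s) / 200 ∈ Icc 0 X := ⟨by linarith, by linarith⟩
  have h0 : (0 : ℝ) ∈ Icc 0 X := ⟨le_rfl, c.X0.le⟩
  have h1 := (convex_Icc (0 : ℝ) X).norm_image_sub_le_of_norm_hasDerivWithin_le
    (f := wT U 0 s) (f' := wT U 1 s) (C := 2)
    (fun y hy => hX.jw.dx 0 s y ⟨hs, le_rfl⟩ hy) (fun y hy => (g.pre y hy).2) hx h0
  have h2 := (g.out.1 _ ⟨le_rfl, hx.2⟩).1
  have h3 : ((T - s) / 200) ^ (11 / 4 : ℝ) ≤ (T - s) / 200 := by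
    have := Real.rpow_le_rpow_of_exponent_ge (x := (T - s) / 200) (y := 11 / 4) (z := 1)
      (by linarith) (by linarith) (by norm_num)
    rwa [Real.rpow_one] at this
  have h4 := (g.pre 0 h0).1
  simp only [Real.norm_eq_abs, zero_sub, abs_neg, abs_of_nonneg hx.1] at h1
  have h5 := (abs_le.1 h1).2
  have h6 := (abs_le.1 h2).2
  rw [wT_zero U s 0, add_zero] at h4 h5
  exact ⟨by linarith, by linarith⟩

end Crest.Agent.N207.S.Top
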