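import Crest.Agent.N207.S.Top.Gl2
import Crest.Agent.N207.S.Out.Exit

/-!
Row 207, S0320: shooting and the gauge solution (helper55).
-/

set_option autoImplicit false

open Set Filter
open scoped Topology ContDiff

noncomputable section
namespace Crest.Agent.N207.S.Top

open Ex Ga

variable {e : ℝ} {b : ℕ} {h : Rel e b} {α T X K0 K C1 M : ℝ}
  {u0 : (Fin 3 → ℝ) → ℝ → E3} {D : Set ((Fin 3 → ℝ) × ℝ)} {U : (Fin 3 → ℝ) → ℝ → ℝ → E3}

lemma later (F : IsFlow (sys h) u0 D U) {p : Fin 3 → ℝ} {s : ℝ} (hD : (p, s) ∈ D) (hs : s < T) :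
    ∃ t', s < t' ∧ t' < T ∧ 0 < t' ∧ (p, t') ∈ D ∧ IsSol (sys h) 0 t' (U p) := by
  have h0 : 0 ≤ s := F.nonneg _ hD
  have hc : Tendsto (fun t : ℝ => (p, t)) (𝓝[>] s) (𝓝 (p, s)) :=
    (continuous_const.prodMk continuous_id).continuousAt.mono_left nhdsWithin_le_nhds
  obtain ⟨t, h1, h2⟩ := ((hc.eventually (F.opn _ hD)).and (Ioo_mem_nhdsGT hs)).exists
  have h3 : 0 < t := h0.trans_lt h2.1
  exact ⟨t, h2.1, h2.2, h3, h1 h3.le, F.sol p t (h1 h3.le) h3⟩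

lemma cont_cj (F : IsFlow (sys h) u0 D U) (hT : T ≤ 1) (i : Fin 3) (j : ℕ) :
    ContinuousOn (fun y : (Fin 3 → ℝ) × ℝ => cj (U y.1) i j y.2 (T - y.2))
      (D ∩ {y | 0 ≤ y.2 ∧ y.2 < T}) := by
  have hm : ∀ y ∈ D ∩ {y : (Fin 3 → ℝ) × ℝ | 0 ≤ y.2 ∧ y.2 < T}, T - y.2 ∈ Icc (0 : ℝ) 1 :=
    fun y hy => ⟨by linarith [hy.2.2], by linarith [hy.2.1]⟩
  have h1 := (F.cont j).comp (f := fun y : (Fin 3 → ℝ) × ℝ => (y, T - y.2)) (by fun_prop)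
    fun y hy => ⟨hy.1, hm y hy⟩
  refine ((EuclideanSpace.proj i : E3 →L[ℝ] ℝ).continuous.comp_continuousOn h1).congr
    fun y hy => ?_
  obtain ⟨t', a1, -, -, -, a2⟩ := later F (p := y.1) (s := y.2) hy.1 hy.2.2
  exact (sol_jet a2 j ⟨hy.2.1, a1.le⟩ (hm y hy) i).symm

lemma cont_nn (F : IsFlow (sys h) u0 D U) (hT : T ≤ 1) (j : ℕ) :
    ContinuousOn (fun y : (Fin 3 → ℝ) × ℝ => Out.nn α T (wT (U y.1)) j y.2)
      (D ∩ {y | 0 ≤ y.2 ∧ y.2 < T}) := by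
  have hp : ∀ (a : ℝ) (i : ℕ), ContinuousOn (fun y : (Fin 3 → ℝ) × ℝ => Out.pw a i (T - y.2))
      (D ∩ {y | 0 ≤ y.2 ∧ y.2 < T}) := fun a i =>
    continuousOn_const.mul (ContinuousOn.rpow_const (by fun_prop)
      fun y hy => Or.inl (sub_pos.2 hy.2.2).ne')
  have hw : ∀ i, ContinuousOn (fun y : (Fin 3 → ℝ) × ℝ => Out.WS (wT (U y.1)) i y.2 (T - y.2))
      (D ∩ {y | 0 ≤ y.2 ∧ y.2 < T}) := fun i => by
    have h1 : ContinuousOn (fun y : (Fin 3 → ℝ) × ℝ => idS i (T - y.2))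
        (D ∩ {y | 0 ≤ y.2 ∧ y.2 < T}) := by
      rcases i with _ | _ | i
      · simp only [idS]; fun_prop
      · exact continuousOn_const
      · exact continuousOn_const
    simp only [Out.WS, wT]
    exact ((cont_cj F hT 0 i).add h1).sub (hp 1 i)
  have h2 := cont_mulS (F := fun _ : (Fin 3 → ℝ) × ℝ => Out.pw (-α))
    (G := fun y i => Out.WS (wT (U y.1)) i y.2) (x := fun y => T - y.2) (hp _) hw j
  have h3 : ContinuousOn (fun y : (Fin 3 → ℝ) × ℝ => (T - y.2) ^ (3 - j))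
      (D ∩ {y | 0 ≤ y.2 ∧ y.2 < T}) := by fun_prop
  simp only [Out.nn, Out.VV]
  exact h2.div h3 fun y hy => pow_ne_zero _ (sub_pos.2 hy.2.2).ne'

lemma Ctx.good (c : Ctx h α T X K0 K C1 M) (F : IsFlow (sys h) u0 D U) {p : Fin 3 → ℝ}
    (d : Dat0 K0 e α T X (U p)) {t : ℝ} (hD : (p, t) ∈ D) (ht : t < T)
    (hc : ∀ s, 0 ≤ s → s ≤ t → ∀ j : Fin 3, |Out.nn α T (wT (U p)) j s| ≤ 1 / 100) :
    ∀ s ∈ Icc 0 t, Good K e T X (U p) s := by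
  obtain ⟨t', a1, a2, a3, -, a4⟩ := later F hD ht
  exact (c.boot a3 a2 a4 d ⟨F.nonneg _ hD, a1.le⟩
    fun s hs j hj => hc s hs.1 hs.2 ⟨j, hj⟩).1

theorem Ctx.shoot (c : Ctx h α T X K0 K C1 M) (F : IsFlow (sys h) u0 D U)
    (d : ∀ p, Dat0 K0 e α T X (U p))
    (f : ∀ p, ∀ j : Fin 3, (p j = 1 → 1 / 100 < Out.nn α T (wT (U p)) j 0) ∧
      (p j = -1 → Out.nn α T (wT (U p)) j 0 < -(1 / 100))) :
    Out.Shoot (ι := Fin 3) id T (1 / 100) D fun p s j => Out.nn α T (wT (U p)) j s where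
  hT := c.hT
  hη := by norm_num
  hc := continuousOn_id
  zero_mem := F.zero_mem
  down := F.down
  opn := F.opn
  cont j := cont_nn F (by linarith [c.TX, c.X4]) j
  extend p t h0 hT hs := by
    have a0 : 0 < (T - t) ^ 3 / 8 := by have := sub_pos.2 hT; positivity
    have a1 : (T - t) ^ 3 / 8 ≤ 1 := by
      have : (T - t) ^ 3 ≤ 1 := pow_le_one₀ (by linarith) (by linarith [c.TX, c.X4])
      linarith
    refine F.extend p t h0 (fun s h => (hs s h.1 h.2).1) _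
      (isCompact_KK _ (3 * ((K + 1) / ((T - t) ^ 3 / 8) ^ 4))) (KK_sub a0 _)
      (3 * ((K + 1) / ((T - t) ^ 3 / 8) ^ 4)) fun s h x hx => ?_
    have hD := (hs s h.1 h.2).1
    have g := c.good F (d p) hD (h.2.trans hT)
      (fun s' a b => (hs s' a (b.trans_lt h.2)).2) s ⟨h.1, le_rfl⟩
    obtain ⟨m1, m2⟩ := c.mem g a0 a1 hx (c.w_low g h.1 h.2.le hT hx)
    refine ⟨m2, fun j hj => norm_le3 _ fun i => ?_⟩
    obtain ⟨t', b1, -, -, -, b2⟩ := later F hD (h.2.trans hT)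
    rw [sol_jet b2 j ⟨h.1, b1.le⟩ hx i]
    exact m1 i j hj
  trans p t t' h0 h1 h2 hD hc j hj :=
    (c.boot (h0.trans_lt h1) h2 (F.sol p t' hD (h0.trans_lt h1)) (d p) ⟨h0, h1.le⟩
      fun s hs j hj => hc s hs.1 hs.2 ⟨j, hj⟩).2 h1 j j.2 hj
  face1 a _ j hj := (f a j).1 hj
  face0 a _ j hj := (f a j).2 hj

theorem Ctx.fin {q : ℕ} {h : Rel (1 / ((q : ℝ) - 1)) b} (c : Ctx h α T X K0 K C1 M) (hq : 2 ≤ q)
    (hG : GaFin) (F : IsFlow (sys h) u0 D U) (d : ∀ p, Dat0 K0 (1 / ((q : ℝ) - 1)) α T X (U p))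
    (f : ∀ p, ∀ j : Fin 3, (p j = 1 → 1 / 100 < Out.nn α T (wT (U p)) j 0) ∧
      (p j = -1 → Out.nn α T (wT (U p)) j 0 < -(1 / 100))) :
    ∃ a W X' z Y v, Geo.GaugeSol q a T W X' z Y v := by
  obtain ⟨p, hp⟩ := (c.shoot F d f).exit
  have g : ∀ t ∈ Ico 0 T, ∀ s ∈ Icc 0 t, Good K _ T X (U p) s := fun t ht =>
    c.good F (d p) (hp t ht.1 ht.2).1 ht.2
      fun s a b j => ((hp s a (b.trans_lt ht.2)).2 j).le
  have g' : ∀ t ∈ Ico 0 T, Good K _ T X (U p) t := fun t ht => g t ht t ⟨ht.1, le_rfl⟩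
  have hX : ∀ t ∈ Ico 0 T, XSol _ 0 t X (wT (U p)) (ct (sys h) (U p) 0) (cj (U p) 2)
      (ct (sys h) (U p) 2) := fun t ht => by
    obtain ⟨t', a1, -, a3, -, a4⟩ := later F (hp t ht.1 ht.2).1 ht.2
    exact ((c.near _ b h t' _ a3 a4 (d p).cp).2.mono le_rfl a1.le).monoX c.X4.le
  have hX0 := c.X0
  have hX4 := c.X4
  refine hG q b h T X (U p) hq c.hT c.X0 c.X4.le
    (fun t ht => F.sol p t (hp t ht.1.le ht.2).1 ht.1) (d p).cp
    (c.post _ _ _ _ (fun t ht => ⟨hX t ht, c.reg1 (g t ht), (g' t ht).out⟩) fun t ht x hx => ?_)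
    ⟨KK (X / 2) (3 * ((K + 1) / (X / 2) ^ 4)), (K + 1) / (X / 2) ^ 4, isCompact_KK _ _,
      KK_sub (half_pos hX0) _, fun s hs x hx => ?_⟩ ?_
  · have h1 := (g' t ht).inn.1 x hx
    have h2 : 0 ≤ (T - t) ^ 3 := pow_nonneg (by linarith [ht.2]) 3
    exact ⟨by linarith, by linarith [hx.1],
      ((g' t ht).pre x ⟨hx.1, by linarith [hx.2, ht.1, c.TX]⟩).2⟩
  · obtain ⟨m1, m2⟩ := c.mem (a := X / 2) (g' s hs) (by linarith) (by linarith)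
      ⟨by linarith [hx.1], hx.2⟩ (by linarith [((g' s hs).far x hx).1, hx.1])
    exact ⟨m2, fun j hj => ⟨m1 0 j (by omega), m1 2 j (by omega)⟩⟩
  · have hm : ∀ᶠ s in 𝓝[<] T, s ∈ Ico 0 T := Ico_mem_nhdsLT c.hT
    have hl : Tendsto (fun s => (T - s) / 50) (𝓝[<] T) (𝓝 0) := by
      have : Tendsto (fun s => (T - s) / 50) (𝓝 T) (𝓝 ((T - T) / 50)) :=
        (by fun_prop : Continuous fun s : ℝ => (T - s) / 50).tendsto T
      rw [sub_self, zero_div] at this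
      exact this.mono_left nhdsWithin_le_nhds
    refine squeeze_zero' ?_ ?_ hl
    · filter_upwards [hm] with s hs using (c.tip (hX s hs) (g' s hs) hs.1 hs.2).1
    · filter_upwards [hm] with s hs using (c.tip (hX s hs) (g' s hs) hs.1 hs.2).2

/-- **the glue**. -/
theorem glue (hF : FlowStmt) (hN : GaNear) (hG : GaFin) (hR : Rg.RegStmt) (hO : Out.OuterStmt)
    (hI : InnerStmt) (hP : In.PostStmt) (hD : DataStmt) :
    ∃ q : ℕ, 10 ≤ q ∧ ∃ a T W X' z Y v, Geo.GaugeSol q a T W X' z Y v := by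
  obtain ⟨K0, hK0, hD⟩ := hD
  obtain ⟨x0, hx0, hR⟩ := hR
  obtain ⟨K1, eR, hK1, heR, hR⟩ := hR 40 K0 (by norm_num)
  obtain ⟨C1, eI, XI, hC1, heI, hXI, hI⟩ := hI (K0 + K1 + 1) (by linarith)
  obtain ⟨XO, hXO, hO⟩ := hO C1 hC1
  obtain ⟨eP, heP, hP⟩ := hP (K0 + K1 + 1)
  obtain ⟨M, hM1, hM⟩ := exists_BM
  obtain ⟨ε, hε, e1, e2, e3, e4, e5⟩ : ∃ ε : ℝ, 0 < ε ∧ ε ≤ eR ∧ ε ≤ eI ∧ ε ≤ eP ∧ ε ≤ 1 / 10 ^ 6 ∧
      ε ≤ 1 / (8 * (K0 + K1)) :=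
    ⟨min eR (min eI (min eP (min (1 / 10 ^ 6) (1 / (8 * (K0 + K1)))))), by positivity,
      min_le_left _ _, by simp, by simp, by simp, by simp⟩
  obtain ⟨X, hX, x1, x2, x3, x4, x5⟩ : ∃ X : ℝ, 0 < X ∧ X ≤ x0 ∧ X ≤ XI ∧ X ≤ XO ∧ X ≤ 1 / 10 ^ 6 ∧
      X ≤ 1 / (4 * M) :=
    ⟨min x0 (min XI (min XO (min (1 / 10 ^ 6) (1 / (4 * M))))), by positivity,
      min_le_left _ _, by simp, by simp, by simp, by simp⟩
  obtain ⟨n, hn⟩ := exists_nat_ge (1 / ε)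
  have hq : 2 ≤ 2 * n + 11 := by omega
  have h := rel_of (b := n + 7) hq (by ring)
  have he : 1 / (((2 * n + 11 : ℕ) : ℝ) - 1) ≤ ε := by
    have : (0 : ℝ) ≤ n := Nat.cast_nonneg n
    rw [div_le_iff₀ hε] at hn
    push_cast
    rw [div_le_iff₀ (by linarith)]
    nlinarith
  obtain ⟨α, hα⟩ := Out.exists_par h.1 (he.trans e4)
  obtain ⟨TD, hTD, hD⟩ := hD X hX x4
  obtain ⟨TR, hTR, hR⟩ := hR _ _ h (he.trans e1) X hX x1 (X ^ 2) (by positivity)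
  obtain ⟨TI, hTI, hI⟩ := hI X hX x2
  obtain ⟨TO, hTO, hTX, hO⟩ := hO X hX x3
  obtain ⟨T, hT, t1, t2, t3, t4⟩ : ∃ T : ℝ, 0 < T ∧ T ≤ TD ∧ T ≤ TR ∧ T ≤ TI ∧ T ≤ TO :=
    ⟨min TD (min TR (min TI TO)), by positivity, min_le_left _ _, by simp, by simp, by simp⟩
  obtain ⟨u0, d1, d2, d3, d4, d5⟩ := hD _ _ α T hα hT t1
  obtain ⟨D, U, F⟩ := hF E3 (sys h) (Fin 3 → ℝ) u0 d1 d2 d3 d4
  have hX4 : X < 1 / 4 := x4.trans_lt (by norm_num)
  have c : Ctx h α T X K0 (K0 + K1) C1 M :=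
    { hT := hT
      TX := t4.trans hTX
      X1 := x4
      K1 := by linarith
      K0K := by linarith
      eK := by
        have := he.trans e5
        rwa [le_div_iff₀ (by linarith), mul_comm] at this
      hM := hM
      XM := by rw [le_div_iff₀ (by linarith)] at x5; linarith
      near := hN
      reg := fun t U h0 h1 a1 a2 a3 a4 a5 s hs => by
        obtain ⟨b1, b2⟩ := hR t U h0 (h1.trans t2) a1 a2 a3 a4 a5 s hs
        exact ⟨jb_mono b1 (by linarith) h.1.le,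
          fun x hx => ⟨(b2 x hx).1, ((b2 x hx).2 0 (by norm_num)).1⟩⟩
      inner := fun t w wt k kt a1 a2 a3 =>
        hI _ t T _ w wt k kt h.1 (he.trans e2) hX4 a1 a2 a3 t3
      outer := fun t t' w wt k kt a1 a2 a3 a4 =>
        hO _ _ α 0 t t' T _ w wt k kt hα hX4 a1 a2 a3 a4 (by linarith)
      post := fun w wt k kt => hP _ 0 T X (1 / 8) w wt k kt h.1 (he.trans e3) hT
        (by linarith) (by linarith) (by norm_num) }
  have d6 := fun p => d5 p (U p) (F.init p)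
  obtain ⟨a, W, X', z, Y, v, hs⟩ := c.fin hq hG F
    (fun p => ⟨(d6 p).1, (d6 p).2.1, (d6 p).2.2.1, (d6 p).2.2.2.1, (d6 p).2.2.2.2.1⟩)
    fun p => (d6 p).2.2.2.2.2
  exact ⟨_, by omega, a, T, W, X', z, Y, v, hs⟩

end Crest.Agent.N207.S.Top
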