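import Crest.Agent.N207.S.Top.Gl3
import Crest.Agent.N207.S.Gb4
import Crest.Agent.N207.S.G1e
import Crest.Agent.N207.S.Gc4

/-!
Row 207, S0320: all analytic blocks imply the statement (helper55).
-/

set_option autoImplicit false

namespace Crest.Agent.N207.S.Top

theorem goal (hF : Ex.FlowStmt) (hN : GaNear) (hG : GaFin) (hR : Rg.RegStmt) (hO : Out.OuterStmt)
    (hI : InnerStmt) (hP : In.PostStmt) (hD : DataStmt) : ∃ q : ℕ, 10 ≤ q ∧ Gb.Goal q := by
  obtain ⟨q, hq, _, _, _, _, _, _, _, h⟩ := glue hF hN hG hR hO hI hP hD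
  exact ⟨q, hq, Gb.geo_of Geo.g1 Gc.g3 h⟩

end Crest.Agent.N207.S.Top
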